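import Vale.Agent.P322.General.FinalWC
import Vale.Agent.P322.General.JoinWC

noncomputable section

open Real Finset Vale.Agent.P322

-- the certificate arithmetic class must not supply `/` in the statement
attribute [-instance] Vale.Agent.P322.IV.instAlgReal

/-- The Courtade-Kumar inequality for every Boolean function. -/
theorem Vale.Agent.Results.P322.CourtadeKumar.result :
    ∀ (n : ℕ) (f : (Fin n → Bool) → Bool) (ε : ℝ), 0 ≤ ε → ε ≤ 1 / 2 →
      mutualInfo f ε ≤ 1 - binEntropy ε / log 2 :=
  General.CK_of_TPL_WC General.tpl_WC
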